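import Vale.Agent.P063.Main
import Vale.Agent.P063.Coins
import Vale.Agent.P063.Deriv

/-!
# P063: the threshold width of symmetrical hypergraph properties
-/

namespace Vale.Agent.Results.P063.ThresholdWidth

open Finset Vale.Agent.P063

theorem result (r : ℕ) (hr : 2 ≤ r) (ε : ℝ) (hε : 0 < ε) (hε' : ε < 1 / 2) :
    ∃ C : ℝ, ∀ (n : ℕ), r ≤ n → ∀ f : (Edge n r → Bool) → Bool,
      (∀ (σ : Equiv.Perm (Fin n)) (y : Edge n r → Bool), f (fun e => y (relabel σ e)) = f y) →
      (∀ y z : Edge n r → Bool, (∀ e, y e = true → z e = true) → f y = true → f z = true) →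
      (∃ y, f y = false) → (∃ y, f y = true) →
        pq f (1 - ε) - pq f ε ≤ C / Real.log n ^ ((r : ℝ) / ((r : ℝ) - 1)) := by
  obtain ⟨c, hc, hmain⟩ := influence_bound hr hε
  refine ⟨1 / c, fun n hn f hsym hinc h0 h1 => ?_⟩
  have hmono : Monotone f := by
    intro y z hyz
    have h := hinc y z fun e he => by
      have := hyz e
      rw [he] at this
      exact top_le_iff.mp this
    rcases Bool.eq_false_or_eq_true (f y) with hy | hy
    · rw [hy, h hy]
    · rw [hy]; exact bot_le
  have hn1 : (1:ℝ) < n := by exact_mod_cast (show 1 < n by omega)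
  have hL : 0 < Real.log n ^ ((r : ℝ) / ((r : ℝ) - 1)) :=
    Real.rpow_pos_of_pos (Real.log_pos hn1) _
  rw [div_div]
  refine width_le f hmono h0 h1 hε hε' (mul_pos hc hL) fun m a ha hlo hhi => ?_
  refine hmain n hn m (pull m a f) (fun x => ?_) (fun σ x => ?_) ?_ _ (fun j => sum_infl_pull_le ha f hmono j)
  · simp only [pull]
    cases f (read m a x) <;> simp
  · simp only [pull]
    have e : read m a (fun c : Edge n r × Fin m => x (relabel σ c.1, c.2)) =
        fun e => read m a x (relabel σ e) := rfl
    rw [e, hsym]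
  · rw [var_pull ha f]
    nlinarith

end Vale.Agent.Results.P063.ThresholdWidth
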